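import Vale.Agent.P211.Cert.Pair.Data.PairAxisW.Base

/-!
P211, data: the root `axisW` of the form across the gradient, generated from the exact search.
-/

namespace Vale.Agent.P211.Cert.Pair.PairAxisW

open Vale.Agent.P098.Check6 (Face St ofChunks reach)
open Vale.Agent.P098.Cert6.Kron (RootPar)

/-- A subtree. -/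
def tree0 : Check.Tree Check.Leaf :=
  .node 0
    (.node 0
    (.node 0
    (.node 0
    (.node 0
    (.node 0
    (.node 1
    (.node 0
    (.node 0
    (.leaf (.psd ⟨⟨⟨1024, 0, 0⟩, ⟨(-19), 1, 0⟩, ⟨0, 0, 1⟩⟩, ⟨⟨1, 0, 0⟩, ⟨19, 1024, 0⟩, ⟨0, 0, 1024⟩⟩, 1024, ⟨143, 4096, 1⟩⟩))
    (.leaf (.psd ⟨⟨⟨1024, 0, 0⟩, ⟨(-30), 1, 0⟩, ⟨0, 0, 1⟩⟩, ⟨⟨1, 0, 0⟩, ⟨30, 1024, 0⟩, ⟨0, 0, 1024⟩⟩, 1024, ⟨79, 4096, 1⟩⟩)))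
    (.leaf (.psd ⟨⟨⟨1024, 0, 0⟩, ⟨(-48), 1, 0⟩, ⟨0, 0, 1⟩⟩, ⟨⟨1, 0, 0⟩, ⟨48, 1024, 0⟩, ⟨0, 0, 1024⟩⟩, 1024, ⟨49, 4096, 1⟩⟩)))
    (.node 0
    (.leaf (.psd ⟨⟨⟨1024, 0, 0⟩, ⟨(-31), 1, 0⟩, ⟨0, 0, 1⟩⟩, ⟨⟨1, 0, 0⟩, ⟨31, 1024, 0⟩, ⟨0, 0, 1024⟩⟩, 1024, ⟨34552, 1048576, 1⟩⟩))
    (.leaf (.psd ⟨⟨⟨1024, 0, 0⟩, ⟨(-55), 1, 0⟩, ⟨0, 0, 1⟩⟩, ⟨⟨1, 0, 0⟩, ⟨55, 1024, 0⟩, ⟨0, 0, 1024⟩⟩, 1024, ⟨60, 4096, 1⟩⟩))))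
    (.leaf (.psd ⟨⟨⟨1024, 0, 0⟩, ⟨(-94), 1, 0⟩, ⟨0, 0, 1⟩⟩, ⟨⟨1, 0, 0⟩, ⟨94, 1024, 0⟩, ⟨0, 0, 1024⟩⟩, 1024, ⟨26, 4096, 1⟩⟩)))
    (.node 2
    (.leaf (.psd ⟨⟨⟨1024, 0, 0⟩, ⟨(-285), 1, 0⟩, ⟨0, 0, 1⟩⟩, ⟨⟨1, 0, 0⟩, ⟨285, 1024, 0⟩, ⟨0, 0, 1024⟩⟩, 1024, ⟨2036, 1048576, 1⟩⟩))
    (.leaf (.psd ⟨⟨⟨1024, 0, 0⟩, ⟨(-187), 1, 0⟩, ⟨0, 0, 1⟩⟩, ⟨⟨1, 0, 0⟩, ⟨187, 1024, 0⟩, ⟨0, 0, 1024⟩⟩, 1024, ⟨19, 4096, 1⟩⟩))))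
    (.node 0
    (.node 2
    (.node 2
    (.leaf (.psd ⟨⟨⟨1024, 0, 0⟩, ⟨(-779), 1, 0⟩, ⟨0, 0, 1⟩⟩, ⟨⟨1, 0, 0⟩, ⟨779, 1024, 0⟩, ⟨0, 0, 1024⟩⟩, 1024, ⟨2, 4096, 1⟩⟩))
    (.leaf (.psd ⟨⟨⟨1024, 0, 0⟩, ⟨(-533), 1, 0⟩, ⟨0, 0, 1⟩⟩, ⟨⟨1, 0, 0⟩, ⟨533, 1024, 0⟩, ⟨0, 0, 1024⟩⟩, 1024, ⟨5, 4096, 1⟩⟩)))
    (.leaf (.psd ⟨⟨⟨1024, 0, 0⟩, ⟨(-338), 1, 0⟩, ⟨0, 0, 1⟩⟩, ⟨⟨1, 0, 0⟩, ⟨338, 1024, 0⟩, ⟨0, 0, 1024⟩⟩, 1024, ⟨10, 4096, 1⟩⟩)))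
    (.node 2
    (.leaf (.psd ⟨⟨⟨1024, 0, 0⟩, ⟨(-860), 1, 0⟩, ⟨0, 0, 1⟩⟩, ⟨⟨1, 0, 0⟩, ⟨860, 1024, 0⟩, ⟨0, 0, 1024⟩⟩, 1024, ⟨493, 1048576, 1⟩⟩))
    (.leaf (.psd ⟨⟨⟨1024, 0, 0⟩, ⟨(-464), 1, 0⟩, ⟨0, 0, 1⟩⟩, ⟨⟨1, 0, 0⟩, ⟨464, 1024, 0⟩, ⟨0, 0, 1024⟩⟩, 1024, ⟨7, 4096, 1⟩⟩)))))
    (.leaf (.psd ⟨⟨⟨1024, 0, 0⟩, ⟨(-431), 1, 0⟩, ⟨0, 0, 1⟩⟩, ⟨⟨1, 0, 0⟩, ⟨431, 1024, 0⟩, ⟨0, 0, 1024⟩⟩, 1024, ⟨365, 1048576, 1⟩⟩)))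
    (.leaf (.psd ⟨⟨⟨1024, 0, 0⟩, ⟨8, 1, 0⟩, ⟨0, 0, 1⟩⟩, ⟨⟨1, 0, 0⟩, ⟨(-8), 1024, 0⟩, ⟨0, 0, 1024⟩⟩, 1024, ⟨2, 4096, 1⟩⟩)))
    (.leaf (.psd ⟨⟨⟨1024, 0, 0⟩, ⟨376, 1, 0⟩, ⟨0, 0, 1⟩⟩, ⟨⟨1, 0, 0⟩, ⟨(-376), 1024, 0⟩, ⟨0, 0, 1024⟩⟩, 1024, ⟨4, 4096, 1⟩⟩))

theorem chunk0 : Check.Good ⟨false, false, false⟩ cfg (reach cfg base []) :=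
  Check.check_sound tree0 (by decide +kernel)

end Vale.Agent.P211.Cert.Pair.PairAxisW
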